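import Vale.Agent.P045.Bdl.B1

/-!
# P045: composition of extremal intersecting hypergraphs, dual form
-/

namespace Vale.Agent.P045.H558

open Finset P045.LS

/-- One partition of a point: the trivial example. -/
theorem dualCE_one : DualCE 1 := by
  refine ⟨Unit, Unit, Unit, inferInstance, inferInstance, inferInstance, inferInstance,
    inferInstance, inferInstance, fun _ _ => (), ⟨()⟩, by simp, fun _ _ => ⟨(), rfl⟩, ?_⟩
  intro C hC
  obtain ⟨i, hi⟩ := hC ()
  exact Finset.card_pos.2 ⟨_, hi⟩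

/-- **Composition.**  Every vertex of part `i` of the hypergraph (dual form `f`) is replaced by a
copy of an extremal intersecting `wt i`-partite hypergraph. -/
theorem dualCE_comp {P W Z : Type} [Fintype P] [Fintype W] [Fintype Z] [DecidableEq P]
    [DecidableEq W] [DecidableEq Z] (f : P → W → Z) (hW : Nonempty W)
    (hI : ∀ w w' : W, ∃ i, f i w = f i w') (wt : P → ℕ) (hwt : ∀ i, DualCE (wt i))
    (hcov : ∀ C : Finset (P × Z), (∀ w, ∃ i, (i, f i w) ∈ C) → ∑ i, wt i ≤ ∑ z ∈ C, wt z.1) :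
    DualCE (∑ i, wt i) := by
  classical
  choose P2 W2 Z2 fP fW fZ dP dW dZ g hne hcard hint hmin using hwt
  refine ⟨Σ i, P2 i, W × (∀ i, W2 i), Z × (Σ i, Z2 i), inferInstance, inferInstance,
    inferInstance, inferInstance, inferInstance, inferInstance,
    fun x w => (f x.1 w.1, ⟨x.1, g x.1 x.2 (w.2 x.1)⟩), ?_, ?_, ?_, ?_⟩
  · obtain ⟨w⟩ := hW
    exact ⟨(w, fun i => Classical.choice (hne i))⟩
  · rw [Fintype.card_sigma]
    exact Finset.sum_congr rfl fun i _ => hcard i
  · rintro ⟨w, a⟩ ⟨w', a'⟩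
    obtain ⟨i, hi⟩ := hI w w'
    obtain ⟨j, hj⟩ := hint i (a i) (a' i)
    refine ⟨⟨i, j⟩, ?_⟩
    simp only [hi, hj]
  · intro C hC
    -- the fibre over a vertex
    let fib : (z : P × Z) → Finset (P2 z.1 × Z2 z.1) := fun z =>
      Finset.univ.filter fun y => ((⟨z.1, y.1⟩ : Σ i, P2 i), (z.2, (⟨z.1, y.2⟩ : Σ i, Z2 i))) ∈ C
    let C1 : Finset (P × Z) := Finset.univ.filter fun z =>
      ∀ a : W2 z.1, ∃ j, (j, g z.1 j a) ∈ fib z
    have hC1 : ∀ w, ∃ i, (i, f i w) ∈ C1 := by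
      intro w
      by_contra hcon
      push Not at hcon
      have h1 : ∀ i, ∃ a : W2 i, ∀ j, (j, g i j a) ∉ fib (i, f i w) := by
        intro i
        have h2 := hcon i
        simp only [C1, Finset.mem_filter, Finset.mem_univ, true_and] at h2
        push Not at h2
        exact h2
      choose a ha using h1
      obtain ⟨⟨i, j⟩, hij⟩ := hC (w, a)
      refine ha i j ?_
      simp only [fib, Finset.mem_filter, Finset.mem_univ, true_and]
      exact hij
    refine (hcov C1 hC1).trans ?_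
    have h2 : ∀ z ∈ C1, wt z.1 ≤ (fib z).card := by
      intro z hz
      exact hmin z.1 (fib z) (Finset.mem_filter.1 hz).2
    refine (Finset.sum_le_sum h2).trans ?_
    rw [← Finset.card_sigma]
    refine Finset.card_le_card_of_injOn
      (fun x => ((⟨x.1.1, x.2.1⟩ : Σ i, P2 i), (x.1.2, (⟨x.1.1, x.2.2⟩ : Σ i, Z2 i)))) ?_ ?_
    · intro x hx
      have := (Finset.mem_sigma.1 hx).2
      exact (Finset.mem_filter.1 this).2
    · rintro ⟨⟨i, z⟩, ⟨j, y⟩⟩ _ ⟨⟨i', z'⟩, ⟨j', y'⟩⟩ _ h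
      simp only [Prod.mk.injEq, Sigma.mk.injEq] at h
      obtain ⟨⟨rfl, hj⟩, rfl, -, hy⟩ := h
      rw [eq_of_heq hj, eq_of_heq hy]

end Vale.Agent.P045.H558
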