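import Mathlib

/-!
# P045: from weighted gadgets to all sufficiently large numbers
-/

namespace Vale.Agent.P045.H558

open Finset Real

/-- one side of the gap lemma: if `u = k α - l β` is a small positive number then the numbers
`i α + j β` are dense up to `u` near infinity -/
theorem gap_aux {α β u : ℝ} (hβ : 0 < β) (k l : ℕ) (hu : u = k * α - l * β) (hu0 : 0 < u) :
    ∃ t0 : ℝ, ∀ t : ℝ, t0 ≤ t → ∃ i j : ℕ, t - u < i * α + j * β ∧ i * α + j * β ≤ t := by
  refine ⟨β * ((l : ℝ) * (β / u) + 1), fun t ht => ?_⟩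
  have ht0 : 0 ≤ t := le_trans (by positivity) ht
  set M : ℕ := ⌊t / β⌋₊ with hM
  have hM1 : (M : ℝ) ≤ t / β := Nat.floor_le (by positivity)
  have hM2 : t / β < M + 1 := Nat.lt_floor_add_one _
  have hM1' : (M : ℝ) * β ≤ t := by rwa [le_div_iff₀ hβ] at hM1
  have hM2' : t < (M + 1) * β := by rwa [div_lt_iff₀ hβ] at hM2
  set s : ℕ := ⌊(t - M * β) / u⌋₊ with hs
  have hs1 : (s : ℝ) ≤ (t - M * β) / u := Nat.floor_le (div_nonneg (by linarith) hu0.le)
  have hs2 : (t - M * β) / u < s + 1 := Nat.lt_floor_add_one _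
  have hs1' : (s : ℝ) * u ≤ t - M * β := by rwa [le_div_iff₀ hu0] at hs1
  have hs2' : t - M * β < (s + 1) * u := by rwa [div_lt_iff₀ hu0] at hs2
  have hsl : (s : ℝ) ≤ β / u := by
    rw [le_div_iff₀ hu0]; nlinarith
  have hslM : s * l ≤ M := by
    have h1 : (l : ℝ) * (β / u) + 1 ≤ t / β := by
      rw [le_div_iff₀ hβ]; linarith
    have h2 : (s : ℝ) * l ≤ l * (β / u) := by
      rw [mul_comm]; exact mul_le_mul_of_nonneg_left hsl (Nat.cast_nonneg l)
    have h3 : (s : ℝ) * l < M := by linarith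
    have h4 : ((s * l : ℕ) : ℝ) < M := by push_cast; exact h3
    exact_mod_cast h4.le
  refine ⟨s * k, M - s * l, ?_, ?_⟩
  · have e : ((s * k : ℕ) : ℝ) * α + ((M - s * l : ℕ) : ℝ) * β = M * β + s * u := by
      rw [Nat.cast_sub hslM, hu]; push_cast; ring
    rw [e]; linarith
  · have e : ((s * k : ℕ) : ℝ) * α + ((M - s * l : ℕ) : ℝ) * β = M * β + s * u := by
      rw [Nat.cast_sub hslM, hu]; push_cast; ring
    rw [e]; linarith

/-- gaps of `{i α + j β}` tend to zero, logarithmic form -/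
theorem gap_log {p q : ℕ} (hp : 2 ≤ p) (hq : 2 ≤ q)
    (hind : ∀ i j : ℕ, 1 ≤ i → 1 ≤ j → p ^ i ≠ q ^ j) {ε : ℝ} (hε : 0 < ε) :
    ∃ t0 : ℝ, ∀ t : ℝ, t0 ≤ t → ∃ i j : ℕ,
      t - ε < i * Real.log p + j * Real.log q ∧ i * Real.log p + j * Real.log q ≤ t := by
  set α := Real.log p with hα
  set β := Real.log q with hβ
  have hα0 : 0 < α := Real.log_pos (by exact_mod_cast hp)
  have hβ0 : 0 < β := Real.log_pos (by exact_mod_cast hq)
  -- Dirichlet
  obtain ⟨n, hn⟩ := exists_nat_gt (max (β / ε) (β / α))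
  have hn1 : β / ε < n := lt_of_le_of_lt (le_max_left _ _) hn
  have hn2 : β / α < n := lt_of_le_of_lt (le_max_right _ _) hn
  have hn0 : 0 < n := by
    have : (0 : ℝ) < n := lt_trans (by positivity) hn1
    exact_mod_cast this
  obtain ⟨k, hk0, -, hk⟩ := Real.exists_nat_abs_mul_sub_round_le (α / β) hn0
  set l : ℤ := round ((k : ℝ) * (α / β)) with hl
  have hk1 : (1 : ℝ) ≤ k := by exact_mod_cast hk0
  have hnp : (0 : ℝ) < (n : ℝ) + 1 := by positivity
  have hd : |(k : ℝ) * α - l * β| ≤ β / ((n : ℝ) + 1) := by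
    have h1 : (k : ℝ) * α - l * β = ((k : ℝ) * (α / β) - l) * β := by
      field_simp
    rw [h1, abs_mul, abs_of_pos hβ0]
    refine (mul_le_mul_of_nonneg_right hk hβ0.le).trans (le_of_eq ?_)
    ring
  have hsmall : β / ((n : ℝ) + 1) < ε := by
    rw [div_lt_iff₀ hnp]
    rw [div_lt_iff₀ hε] at hn1
    nlinarith
  have hsmall2 : β / ((n : ℝ) + 1) < α := by
    rw [div_lt_iff₀ hnp]
    rw [div_lt_iff₀ hα0] at hn2
    nlinarith
  have hlpos : 0 < l := by
    by_contra h
    push Not at h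
    have h1 : (l : ℝ) ≤ 0 := by exact_mod_cast h
    have h2 : α ≤ (k : ℝ) * α - l * β := by nlinarith
    have h3 := (le_abs_self ((k : ℝ) * α - l * β)).trans hd
    linarith
  obtain ⟨m, hm⟩ := Int.eq_ofNat_of_zero_le hlpos.le
  have hm1 : 1 ≤ m := by omega
  have hne : (k : ℝ) * α - m * β ≠ 0 := by
    intro h
    have h1 : Real.log ((p : ℝ) ^ k) = Real.log ((q : ℝ) ^ m) := by
      rw [Real.log_pow, Real.log_pow]; linarith
    have h2 : ((p : ℝ) ^ k) = ((q : ℝ) ^ m) := by
      have hp0 : (0 : ℝ) < (p : ℝ) ^ k := by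
        have : (0 : ℝ) < p := by exact_mod_cast (by omega : 0 < p)
        positivity
      have hq0 : (0 : ℝ) < (q : ℝ) ^ m := by
        have : (0 : ℝ) < q := by exact_mod_cast (by omega : 0 < q)
        positivity
      exact Real.log_injOn_pos hp0 hq0 h1
    have h3 : p ^ k = q ^ m := by exact_mod_cast h2
    exact hind k m hk0 hm1 h3
  have hlm : (l : ℝ) = m := by rw [hm]; simp
  rw [hlm] at hd
  rcases lt_or_gt_of_ne hne with h | h
  · -- m β - k α > 0
    obtain ⟨t0, ht0⟩ := gap_aux (α := β) (β := α) (u := m * β - k * α) hα0 m k rfl (by linarith)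
    refine ⟨t0, fun t ht => ?_⟩
    obtain ⟨i, j, h1, h2⟩ := ht0 t ht
    have h3 : (m : ℝ) * β - k * α < ε := by
      have := (neg_le_abs ((k : ℝ) * α - m * β)).trans hd
      linarith
    exact ⟨j, i, by linarith, by linarith⟩
  · obtain ⟨t0, ht0⟩ := gap_aux (α := α) (β := β) (u := k * α - m * β) hβ0 k m rfl (by linarith)
    refine ⟨t0, fun t ht => ?_⟩
    obtain ⟨i, j, h1, h2⟩ := ht0 t ht
    have h3 : (k : ℝ) * α - m * β < ε := by
      have := (le_abs_self ((k : ℝ) * α - m * β)).trans hd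
      linarith
    exact ⟨i, j, by linarith, by linarith⟩

/-- gaps of the multiplicative semigroup generated by two multiplicatively independent numbers -/
theorem gap_mul {p q : ℕ} (hp : 2 ≤ p) (hq : 2 ≤ q)
    (hind : ∀ i j : ℕ, 1 ≤ i → 1 ≤ j → p ^ i ≠ q ^ j) {x y : ℕ} (hx : 0 < x) (hxy : x < y) :
    ∃ N0 : ℕ, ∀ N : ℕ, N0 ≤ N → ∃ i j : ℕ, p ^ i * q ^ j * x ≤ N ∧ N ≤ p ^ i * q ^ j * y := by
  have hx' : (0 : ℝ) < x := by exact_mod_cast hx
  have hy' : (0 : ℝ) < y := by exact_mod_cast (hx.trans hxy)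
  have hxy' : (x : ℝ) < y := by exact_mod_cast hxy
  have hp' : (0 : ℝ) < p := by exact_mod_cast (by omega : 0 < p)
  have hq' : (0 : ℝ) < q := by exact_mod_cast (by omega : 0 < q)
  obtain ⟨t0, ht0⟩ := gap_log hp hq hind (ε := Real.log (y / x))
    (Real.log_pos (by rw [lt_div_iff₀ hx']; linarith))
  obtain ⟨N0, hN0⟩ := exists_nat_gt (x * Real.exp t0)
  refine ⟨N0, fun N hN => ?_⟩
  have hN' : x * Real.exp t0 < N := hN0.trans_le (by exact_mod_cast hN)
  have hNpos : (0 : ℝ) < N := lt_trans (by positivity) hN'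
  have ht : t0 ≤ Real.log (N / x) := by
    rw [Real.le_log_iff_exp_le (by positivity), le_div_iff₀ hx']
    linarith
  obtain ⟨i, j, h1, h2⟩ := ht0 _ ht
  have hlog : (i : ℝ) * Real.log p + j * Real.log q = Real.log ((p : ℝ) ^ i * (q : ℝ) ^ j) := by
    rw [Real.log_mul (by positivity) (by positivity), Real.log_pow, Real.log_pow]
  have hpq : (0 : ℝ) < (p : ℝ) ^ i * (q : ℝ) ^ j := by positivity
  rw [hlog] at h1 h2
  refine ⟨i, j, ?_, ?_⟩
  · have h3 : (p : ℝ) ^ i * (q : ℝ) ^ j ≤ N / x := (Real.log_le_log_iff hpq (by positivity)).1 h2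
    rw [le_div_iff₀ hx'] at h3
    exact_mod_cast h3
  · have h3 : Real.log (N / y) < Real.log ((p : ℝ) ^ i * (q : ℝ) ^ j) := by
      refine lt_of_le_of_lt (le_of_eq ?_) h1
      rw [Real.log_div hNpos.ne' hy'.ne', Real.log_div hNpos.ne' hx'.ne',
        Real.log_div hy'.ne' hx'.ne']
      ring
    have h4 := (Real.log_lt_log_iff (by positivity) hpq).1 h3
    rw [div_lt_iff₀ hy'] at h4
    exact_mod_cast h4.le

/-- the closure property given by a weighted gadget with `N` directions and `T` colours -/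
def Gad (R : ℕ → Prop) (N T : ℕ) : Prop :=
  ∀ (wd : Fin N → ℕ) (u m : ℕ), (∀ d, R (wd d)) → R u → (∀ d, m ≤ wd d ∧ wd d ≤ u) →
    ∑ d, wd d + T * u ≤ (N + T + 1) * m → R (∑ d, wd d + T * u)

theorem sum_ite_lt (N c : ℕ) (h : c ≤ N) : ∑ d : Fin N, (if d.val < c then 1 else 0) = c := by
  rw [Finset.sum_boole]
  have : (Finset.univ.filter fun d : Fin N => d.val < c).card = c := by
    have h1 : (Finset.univ.filter fun d : Fin N => d.val < c) =
        (Finset.univ : Finset (Fin c)).image (Fin.castLE h) := by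
      ext d
      simp only [Finset.mem_filter, Finset.mem_univ, true_and, Finset.mem_image]
      constructor
      · intro hd
        exact ⟨⟨d.val, hd⟩, by ext; rfl⟩
      · rintro ⟨e, rfl⟩
        exact e.2
    rw [h1, Finset.card_image_of_injective _ (Fin.castLE_injective h), Finset.card_univ,
      Fintype.card_fin]
  simpa using this

/-- distributing a defect over the directions -/
theorem gad_defect {R : ℕ → Prop} {N T : ℕ} (hG : Gad R N T) {u c : ℕ} (hc : c ≤ 2 * N)
    (hR : ∀ k, u - 2 ≤ k → k ≤ u → R k) (hu : 2 * (N + T + 1) ≤ u) (hcu : c ≤ (N + T) * u) :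
    R ((N + T) * u - c) := by
  -- the defects
  set c1 := min c N with hc1
  set c2 := c - N with hc2
  have hc12 : c1 + c2 = c := by omega
  have hc1N : c1 ≤ N := min_le_right _ _
  have hc2N : c2 ≤ N := by omega
  let def1 : Fin N → ℕ := fun d => (if d.val < c1 then 1 else 0) + (if d.val < c2 then 1 else 0)
  have hdef : ∀ d, def1 d ≤ 2 := by
    intro d
    simp only [def1]
    split_ifs <;> omega
  have hsum : ∑ d, def1 d = c := by
    simp only [def1]
    rw [Finset.sum_add_distrib, sum_ite_lt N c1 hc1N, sum_ite_lt N c2 hc2N, hc12]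
  have hu2 : 2 ≤ u := by omega
  have hsum2 : ∑ d, (u - def1 d) + c = N * u := by
    rw [← hsum, ← Finset.sum_add_distrib]
    have : ∀ d ∈ (Finset.univ : Finset (Fin N)), u - def1 d + def1 d = u := by
      intro d _
      have := hdef d
      omega
    rw [Finset.sum_congr rfl this]
    simp
  have e : ∑ d, (u - def1 d) + T * u = (N + T) * u - c := by
    have h1 : (N + T) * u = N * u + T * u := by ring
    omega
  have key := hG (fun d => u - def1 d) u (u - 2) (fun d => hR _ (by have := hdef d; omega)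
    (Nat.sub_le _ _)) (hR u (Nat.sub_le _ _) le_rfl)
    (fun d => ⟨by have := hdef d; omega, Nat.sub_le _ _⟩) ?_
  · rw [e] at key
    exact key
  · rw [e]
    refine (Nat.sub_le _ _).trans ?_
    obtain ⟨v, rfl⟩ := Nat.exists_eq_add_of_le hu2
    have h1 : 2 + v - 2 = v := by omega
    rw [h1]
    nlinarith

/-- runs are multiplied by the gadget -/
theorem run_mul {R : ℕ → Prop} {N T : ℕ} (hG : Gad R N T) (hTN : T ≤ N) (hN : 0 < N) {x y : ℕ}
    (hx : 2 * (N + T + 1) ≤ x) (hR : ∀ k, x ≤ k → k ≤ y → R k) :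
    ∀ k, (N + T) * (x + 2) ≤ k → k ≤ (N + T) * y → R k := by
  intro k hk1 hk2
  set r := N + T with hr
  have hr0 : 0 < r := by omega
  set u := (k + r - 1) / r with hu
  have hu1 : k ≤ r * u := by
    have h1 : (k + r - 1) < r * (u + 1) := by
      rw [hu]; exact Nat.lt_mul_div_succ _ hr0
    have : r * (u + 1) = r * u + r := by ring
    omega
  have hu2 : r * u ≤ k + r - 1 := Nat.mul_div_le _ _
  have huy : u ≤ y := by
    by_contra h
    push Not at h
    have : r * (y + 1) ≤ r * u := Nat.mul_le_mul_left _ h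
    have e : r * (y + 1) = r * y + r := by ring
    omega
  have hux : x + 2 ≤ u := by
    by_contra h
    push Not at h
    have : r * (u + 1) ≤ r * (x + 2) := Nat.mul_le_mul_left _ h
    have e : r * (u + 1) = r * u + r := by ring
    omega
  have key := gad_defect hG (u := u) (c := r * u - k) (by omega)
    (fun j h1 h2 => hR j (by omega) (by omega)) (by omega) (by rw [← hr]; omega)
  rw [← hr] at key
  have e : r * u - (r * u - k) = k := by omega
  rw [e] at key
  exact key

/-- the first run -/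
theorem run_start {R : ℕ → Prop} {N T : ℕ} (hG : Gad R N T) {a : ℕ} (ha : N + T ≤ a)
    (h0 : R a) (h1 : R (a + 1)) :
    ∀ k, (N + T) * (a + 1) ≤ k + N → k ≤ (N + T) * (a + 1) → R k := by
  intro k hk1 hk2
  set r := N + T with hr
  set c := r * (a + 1) - k with hc
  have hcN : c ≤ N := by omega
  let wd : Fin N → ℕ := fun d => if d.val < c then a else a + 1
  have hsum : ∑ d, wd d + c = N * (a + 1) := by
    have h2 := sum_ite_lt N c hcN
    rw [← h2, ← Finset.sum_add_distrib]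
    have : ∀ d ∈ (Finset.univ : Finset (Fin N)),
        wd d + (if d.val < c then 1 else 0) = a + 1 := by
      intro d _
      simp only [wd]
      split_ifs <;> omega
    rw [Finset.sum_congr rfl this]
    simp
  have e : ∑ d, wd d + T * (a + 1) = k := by
    have h3 : r * (a + 1) = N * (a + 1) + T * (a + 1) := by rw [hr]; ring
    omega
  have key := hG wd (a + 1) a (fun d => by simp only [wd]; split_ifs <;> assumption) h1
    (fun d => by simp only [wd]; split_ifs <;> omega) ?_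
  · rw [e] at key
    exact key
  · rw [e]
    refine hk2.trans ?_
    rw [← hr]
    nlinarith

/-- iterating: the run is multiplied by powers, with a bounded loss -/
theorem run_pow {R : ℕ → Prop} {N T : ℕ} (hG : Gad R N T) (hTN : T ≤ N) (hN : 3 ≤ N) {x y : ℕ}
    (hR : ∀ k, x ≤ k + 3 → k ≤ y → R k) (hx3 : 2 * (N + T + 1) + 3 ≤ x)
    (i : ℕ) :
    ∀ k, (N + T) ^ i * x ≤ k + 3 → k ≤ (N + T) ^ i * y → R k := by
  induction i with
  | zero =>
    intro k h1 h2
    rw [pow_zero, one_mul] at h1 h2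
    exact hR k h1 h2
  | succ i ih =>
    intro k h1 h2
    set r := N + T with hr
    have hpos : 1 ≤ r ^ i := Nat.one_le_pow _ _ (by omega)
    have hxi : x ≤ r ^ i * x := Nat.le_mul_of_pos_left _ hpos
    refine run_mul hG hTN (by omega) (x := r ^ i * x - 3) (y := r ^ i * y) ?_ ?_ k ?_ ?_
    · omega
    · intro j hj1 hj2
      exact ih j (by omega) hj2
    · rw [← hr]
      have e : r * (r ^ i * x - 3 + 2) + r = r * (r ^ i * x) := by
        obtain ⟨v, hv⟩ := Nat.exists_eq_add_of_le (show 3 ≤ r ^ i * x by omega)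
        rw [hv]
        have : 3 + v - 3 + 2 = v + 2 := by omega
        rw [this]; ring
      have e2 : r ^ (i + 1) * x = r * (r ^ i * x) := by ring
      omega
    · rw [← hr]
      have e2 : r ^ (i + 1) * y = r * (r ^ i * y) := by ring
      omega

/-- two gadgets with multiplicatively independent sizes and one adjacent pair give all large
numbers -/
theorem all_large {R : ℕ → Prop} {N1 T1 N2 T2 : ℕ} (hG1 : Gad R N1 T1) (hG2 : Gad R N2 T2)
    (hTN1 : T1 ≤ N1) (hTN2 : T2 ≤ N2) (hN1 : 5 ≤ N1) (hN2 : 5 ≤ N2)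
    (hind : ∀ i j : ℕ, 1 ≤ i → 1 ≤ j → (N1 + T1) ^ i ≠ (N2 + T2) ^ j) {a : ℕ} (ha : N1 + T1 ≤ a)
    (h0 : R a) (h1 : R (a + 1)) : ∃ r0 : ℕ, ∀ r, r0 ≤ r → R r := by
  set r1 := N1 + T1 with hr1
  set r2 := N2 + T2 with hr2
  -- the first run
  have hrun0 := run_start hG1 ha h0 h1
  rw [← hr1] at hrun0
  set y0 := r1 * (a + 1) with hy0
  have hy0a : 4 * r1 + N1 ≤ y0 := by
    rw [hy0]
    have : r1 * 5 ≤ r1 * (a + 1) := Nat.mul_le_mul_left _ (by omega)
    omega
  have hy0' : 2 * (r1 + 1) + 3 + N1 ≤ y0 + 0 := by omega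
  set x0 := y0 - N1 + 3 with hx0
  have hx0y0 : x0 < y0 := by omega
  have hrun1 : ∀ i k, r1 ^ i * x0 ≤ k + 3 → k ≤ r1 ^ i * y0 → R k := fun i => by
    have := run_pow hG1 hTN1 (by omega) (x := x0) (y := y0) ?_ ?_ i
    · rw [← hr1] at this; exact this
    · intro k h1 h2
      exact hrun0 k (by omega) h2
    · omega
  -- large start for the second gadget
  obtain ⟨i0, hi0⟩ : ∃ i0 : ℕ, 2 * (r2 + 1) + 3 ≤ r1 ^ i0 * x0 := by
    refine ⟨2 * (r2 + 1) + 3, ?_⟩
    have h2 : 2 * (r2 + 1) + 3 < r1 ^ (2 * (r2 + 1) + 3) := Nat.lt_pow_self (by omega)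
    have h3 : r1 ^ (2 * (r2 + 1) + 3) ≤ r1 ^ (2 * (r2 + 1) + 3) * x0 :=
      Nat.le_mul_of_pos_right _ (by omega)
    omega
  have hrun2 : ∀ i j k, r1 ^ (i0 + i) * (r2 ^ j * x0) ≤ k + 3 →
      k ≤ r1 ^ (i0 + i) * (r2 ^ j * y0) → R k := by
    intro i j
    have h4 : r1 ^ i0 * x0 ≤ r1 ^ (i0 + i) * x0 :=
      Nat.mul_le_mul_right _ (Nat.pow_le_pow_right (by omega) (by omega))
    have := run_pow hG2 hTN2 (by omega) (x := r1 ^ (i0 + i) * x0) (y := r1 ^ (i0 + i) * y0) ?_ ?_ j
    · rw [← hr2] at this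
      intro k h1 h2
      refine this k ?_ ?_
      · refine le_trans (le_of_eq ?_) h1
        ring
      · refine h2.trans (le_of_eq ?_)
        ring
    · intro k h1 h2
      exact hrun1 (i0 + i) k h1 h2
    · omega
  -- the gaps
  obtain ⟨M, hM⟩ := gap_mul (p := r1) (q := r2) (by omega) (by omega) hind
    (x := r1 ^ i0 * x0) (y := r1 ^ i0 * y0)
    (Nat.mul_pos (Nat.pow_pos (by omega)) (by omega))
    (Nat.mul_lt_mul_of_pos_left hx0y0 (Nat.pow_pos (by omega)))
  refine ⟨M, fun r hr => ?_⟩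
  obtain ⟨i, j, h5, h6⟩ := hM r hr
  refine hrun2 i j r ?_ ?_
  · refine le_trans (le_of_eq ?_) (h5.trans (Nat.le_add_right r 3))
    rw [pow_add]; ring
  · refine h6.trans (le_of_eq ?_)
    rw [pow_add]; ring

end Vale.Agent.P045.H558
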